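import Vale.Agent.P359.Gap.Core

/-!
# P359, gap, module M4: the Pauli bound for one and two orbitals, and Bessel's inequality
-/

open Finset
open scoped Classical

namespace Vale.Agent.P359.Gap.Average

variable {K Q : ℕ}

/-- Fibres of changing one coordinate. -/
lemma sum_fiber {β : Type*} [AddCommMonoid β] (a : Fin K) (F : Config K Q → β) :
    ∑ c, F c = ∑ c ∈ univ.filter (fun c : Config K Q => c a = 0),
      ∑ x, F (Function.update c a x) := by
  rw [← Finset.sum_product']
  refine Finset.sum_nbij' (fun c => (Function.update c a 0, c a))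
    (fun p => Function.update p.1 a p.2) ?_ ?_ ?_ ?_ ?_
  · intro c _; simp
  · intro p _; simp
  · intro c _; simp
  · rintro ⟨c, x⟩ hc
    simp at hc
    simp [← hc]
  · intro c _; simp

/-- Antisymmetry inside a set of slots. -/
def AntiOn (s : Finset (Fin K)) (φ : Config K Q → ℂ) : Prop :=
  ∀ a ∈ s, ∀ b ∈ s, a ≠ b → ∀ c, φ (c ∘ Equiv.swap a b) = -φ c

/-- The component on the orbital `f` at slot `a`. -/
noncomputable def amp (f : Fin (Q + 1) → ℂ) (a : Fin K) (φ : Config K Q → ℂ) (c : Config K Q) : ℂ :=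
  ∑ x, f x * φ (Function.update c a x)

lemma amp_update (f : Fin (Q + 1) → ℂ) (a : Fin K) (φ : Config K Q → ℂ) (c : Config K Q)
    (y : Fin (Q + 1)) : amp f a φ (Function.update c a y) = amp f a φ c := by
  simp [amp]

lemma amp_amp_self {s : Finset (Fin K)} {φ : Config K Q → ℂ} (h : AntiOn s φ)
    (f : Fin (Q + 1) → ℂ) {a b : Fin K} (ha : a ∈ s) (hb : b ∈ s) (hab : a ≠ b)
    (c : Config K Q) : ∑ y, f y * amp f b φ (Function.update c a y) = 0 := by
  set S := ∑ y, f y * amp f b φ (Function.update c a y)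
  have hS : S = ∑ y, ∑ x, f y * f x * φ (Function.update (Function.update c a y) b x) := by
    simp only [S, amp, Finset.mul_sum, mul_assoc]
  have key : ∀ x y, φ (Function.update (Function.update c a y) b x)
      = -φ (Function.update (Function.update c a x) b y) := by
    intro x y
    rw [← h a ha b hb hab]
    congr 1
    funext k
    by_cases hka : k = a
    · subst hka; simp [hab]
    by_cases hkb : k = b
    · subst hkb; simp [hab]
    simp [Equiv.swap_apply_of_ne_of_ne hka hkb, Function.update_of_ne hka,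
      Function.update_of_ne hkb]
  have : S = -S := by
    conv_lhs => rw [hS, Finset.sum_comm]
    rw [hS, ← Finset.sum_neg_distrib]
    refine Finset.sum_congr rfl fun x _ => ?_
    rw [← Finset.sum_neg_distrib]
    refine Finset.sum_congr rfl fun y _ => ?_
    rw [key x y]; ring
  exact self_eq_neg.mp this

/-- The Pauli bound for one orbital. -/
lemma pauli {s : Finset (Fin K)} {φ : Config K Q → ℂ} (h : AntiOn s φ)
    (f : Fin (Q + 1) → ℂ) (hf : ∑ x, ‖f x‖ ^ 2 = 1) :
    ∑ a ∈ s, ∑ c ∈ univ.filter (fun c : Config K Q => c a = 0), ‖amp f a φ c‖ ^ 2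
      ≤ ∑ c, ‖φ c‖ ^ 2 := by
  set P : Fin K → Config K Q → ℂ := fun a c => star (f (c a)) * amp f a φ c with hP
  set n : Fin K → ℝ := fun a =>
    ∑ c ∈ univ.filter (fun c : Config K Q => c a = 0), ‖amp f a φ c‖ ^ 2 with hn
  have hff : ∑ x, f x * star (f x) = 1 := by
    have : ∀ x, f x * star (f x) = ((‖f x‖ ^ 2 : ℝ) : ℂ) := fun x => by
      simpa using Complex.mul_conj' (f x)
    simp only [this, ← Complex.ofReal_sum, hf, Complex.ofReal_one]
  have hcross : ∀ a ∈ s, ∀ b ∈ s, ∑ c, star (P a c) * P b c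
      = if a = b then (n a : ℂ) else 0 := by
    intro a ha b hb
    rw [sum_fiber a]
    by_cases hab : a = b
    · subst hab
      rw [if_pos rfl, hn, Complex.ofReal_sum]
      refine Finset.sum_congr rfl fun c _ => ?_
      simp only [hP, amp_update, Function.update_self, star_mul', star_star]
      rw [Complex.ofReal_pow, ← Complex.conj_mul', ← mul_one (_ * amp f a φ c), ← hff, Finset.mul_sum]
      exact Finset.sum_congr rfl fun x _ => by simp; ring
    · rw [if_neg hab]
      refine Finset.sum_eq_zero fun c _ => ?_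
      simp only [hP, amp_update, Function.update_self, Function.update_of_ne (Ne.symm hab),
        star_mul', star_star]
      rw [show ∑ x, f x * star (amp f a φ c) * (star (f (c b)) * amp f b φ (Function.update c a x))
          = star (amp f a φ c) * star (f (c b)) *
            ∑ x, f x * amp f b φ (Function.update c a x) by
        rw [Finset.mul_sum]; exact Finset.sum_congr rfl fun x _ => by ring]
      rw [amp_amp_self h f ha hb hab, mul_zero]
  have hself : ∀ a ∈ s, ∑ c, star (φ c) * P a c = (n a : ℂ) := by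
    intro a _
    rw [sum_fiber a, hn, Complex.ofReal_sum]
    refine Finset.sum_congr rfl fun c _ => ?_
    simp only [hP, amp_update, Function.update_self]
    rw [Complex.ofReal_pow, ← Complex.conj_mul']
    simp only [amp, map_sum, Finset.sum_mul]
    exact Finset.sum_congr rfl fun x _ => by simp; ring
  have hre : ∀ z w : ℂ, ‖z - w‖ ^ 2 = ‖z‖ ^ 2 - 2 * (star z * w).re + (star w * w).re := by
    intro z w
    simp only [← Complex.normSq_eq_norm_sq, Complex.normSq_apply, Complex.star_def,
      Complex.mul_re, Complex.sub_re, Complex.sub_im, Complex.conj_re, Complex.conj_im]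
    ring
  have h0 : 0 ≤ ∑ c, ‖φ c - ∑ a ∈ s, P a c‖ ^ 2 := by positivity
  have h1 : (∑ c, star (φ c) * ∑ a ∈ s, P a c) = ((∑ a ∈ s, n a : ℝ) : ℂ) := by
    simp only [Finset.mul_sum, Complex.ofReal_sum]
    rw [Finset.sum_comm]
    exact Finset.sum_congr rfl hself
  have h2 : (∑ c, star (∑ a ∈ s, P a c) * ∑ a ∈ s, P a c) = ((∑ a ∈ s, n a : ℝ) : ℂ) := by
    simp only [star_sum, Finset.sum_mul, Finset.mul_sum, Complex.ofReal_sum]
    rw [Finset.sum_comm]
    refine Finset.sum_congr rfl fun a ha => ?_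
    rw [Finset.sum_comm, Finset.sum_congr rfl fun b hb => hcross b hb a ha, Finset.sum_ite_eq', if_pos ha]
  simp only [hre, Finset.sum_add_distrib, Finset.sum_sub_distrib, ← Finset.mul_sum,
    ← Complex.re_sum, h1, h2, Complex.ofReal_re] at h0
  change ∑ a ∈ s, n a ≤ _
  linarith

/-- The Pauli bound for an ordered pair of orbitals. -/
lemma pauli₂ {φ : Config K Q → ℂ} (h : AntiOn univ φ) (f g : Fin (Q + 1) → ℂ)
    (hf : ∑ x, ‖f x‖ ^ 2 = 1) (hg : ∑ x, ‖g x‖ ^ 2 = 1) :
    ∑ a, ∑ b ∈ univ.erase a, ∑ c ∈ restConfigs a b,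
        ‖∑ x, ∑ y, f x * g y * φ (Function.update (Function.update c a x) b y)‖ ^ 2
      ≤ ∑ c, ‖φ c‖ ^ 2 := by
  refine le_trans (Finset.sum_le_sum fun a _ => ?_) (pauli h f hf)
  set ξ : Config K Q → ℂ := fun c => if c a = 0 then amp f a φ c else 0
  have hξ : AntiOn (univ.erase a) ξ := by
    intro p hp q hq hpq c
    have hpa : p ≠ a := Finset.ne_of_mem_erase hp
    have hqa : q ≠ a := Finset.ne_of_mem_erase hq
    have hs : (c ∘ Equiv.swap p q) a = c a := by
      simp [Equiv.swap_apply_of_ne_of_ne hpa.symm hqa.symm]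
    have hu : ∀ x, Function.update (c ∘ Equiv.swap p q) a x
        = Function.update c a x ∘ Equiv.swap p q := fun x => by
      rw [Function.update_comp_equiv]
      simp [Equiv.swap_apply_of_ne_of_ne hpa.symm hqa.symm]
    by_cases hc : c a = 0
    · simp only [ξ, hs, if_pos hc, amp, hu, h p (mem_univ _) q (mem_univ _) hpq, mul_neg,
        Finset.sum_neg_distrib]
    · simp only [ξ, hs, if_neg hc, neg_zero]
  have e : ∑ c, ‖ξ c‖ ^ 2
      = ∑ c ∈ univ.filter (fun c : Config K Q => c a = 0), ‖amp f a φ c‖ ^ 2 := by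
    rw [Finset.sum_filter]
    exact Finset.sum_congr rfl fun c _ => by by_cases hc : c a = 0 <;> simp [ξ, hc]
  rw [← e]
  refine le_trans (le_of_eq (Finset.sum_congr rfl fun b hb => ?_)) (pauli hξ g hg)
  have hba : b ≠ a := Finset.ne_of_mem_erase hb
  rw [restConfigs, show (univ.filter fun c : Config K Q => c a = 0 ∧ c b = 0)
      = (univ.filter fun c : Config K Q => c b = 0).filter (fun c => c a = 0) by
    ext c; simp [and_comm], Finset.sum_filter]
  refine Finset.sum_congr rfl fun c _ => ?_
  by_cases hc : c a = 0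
  · rw [if_pos hc, amp]
    congr 2
    rw [Finset.sum_comm]
    refine Finset.sum_congr rfl fun y _ => ?_
    simp only [ξ, Function.update_of_ne hba.symm, if_pos hc, amp, Finset.mul_sum]
    refine Finset.sum_congr rfl fun x _ => ?_
    rw [Function.update_comm hba.symm]; ring
  · simp [amp, ξ, Function.update_of_ne hba.symm, hc]

/-- Bessel's inequality for real orthogonal vectors, complex target. -/
lemma bessel {ι κ : Type*} (R : Finset ι) (T : Finset κ) (g : ι → κ → ℝ) (n : ι → ℝ)
    (hn : ∀ r ∈ R, 0 < n r)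
    (horth : ∀ r ∈ R, ∀ r' ∈ R, ∑ p ∈ T, g r p * g r' p = if r = r' then n r else 0)
    (A : κ → ℂ) :
    ∑ r ∈ R, ‖∑ p ∈ T, (g r p : ℂ) * A p‖ ^ 2 / n r ≤ ∑ p ∈ T, ‖A p‖ ^ 2 := by
  have real : ∀ B : κ → ℝ,
      ∑ r ∈ R, (∑ p ∈ T, g r p * B p) ^ 2 / n r ≤ ∑ p ∈ T, B p ^ 2 := by
    intro B
    set s : ι → ℝ := fun r => ∑ p ∈ T, g r p * B p
    have h0 : 0 ≤ ∑ p ∈ T, (B p - ∑ r ∈ R, s r / n r * g r p) ^ 2 := by positivity
    have h1 : ∑ p ∈ T, B p * ∑ r ∈ R, s r / n r * g r p = ∑ r ∈ R, s r ^ 2 / n r := by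
      simp only [Finset.mul_sum]
      rw [Finset.sum_comm]
      refine Finset.sum_congr rfl fun r _ => ?_
      rw [show ∑ p ∈ T, B p * (s r / n r * g r p) = s r / n r * s r by
        simp only [s, Finset.mul_sum]; exact Finset.sum_congr rfl fun p _ => by ring]
      ring
    have h2 : ∑ p ∈ T, (∑ r ∈ R, s r / n r * g r p) ^ 2 = ∑ r ∈ R, s r ^ 2 / n r := by
      simp only [sq, Finset.mul_sum, Finset.sum_mul]
      rw [Finset.sum_comm]
      refine Finset.sum_congr rfl fun r hr => ?_
      rw [Finset.sum_comm, Finset.sum_eq_single r]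
      · rw [show ∑ p ∈ T, s r / n r * g r p * (s r / n r * g r p)
            = s r / n r * (s r / n r) * ∑ p ∈ T, g r p * g r p by
          rw [Finset.mul_sum]; exact Finset.sum_congr rfl fun p _ => by ring,
          horth r hr r hr, if_pos rfl]
        have := (hn r hr).ne'
        field_simp
      · intro r' hr' hne
        rw [show ∑ p ∈ T, s r' / n r' * g r' p * (s r / n r * g r p)
            = s r' / n r' * (s r / n r) * ∑ p ∈ T, g r' p * g r p by
          rw [Finset.mul_sum]; exact Finset.sum_congr rfl fun p _ => by ring,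
          horth r' hr' r hr, if_neg hne, mul_zero]
      · exact fun h => absurd hr h
    have h3 : ∀ p, (B p - ∑ r ∈ R, s r / n r * g r p) ^ 2
        = B p ^ 2 - 2 * (B p * ∑ r ∈ R, s r / n r * g r p)
          + (∑ r ∈ R, s r / n r * g r p) ^ 2 := fun p => by ring
    simp only [h3, Finset.sum_add_distrib, Finset.sum_sub_distrib, ← Finset.mul_sum, h1, h2] at h0
    change ∑ r ∈ R, s r ^ 2 / n r ≤ _
    linarith
  have e : ∀ z : ℂ, ‖z‖ ^ 2 = z.re ^ 2 + z.im ^ 2 := fun z => by
    rw [← Complex.normSq_eq_norm_sq, Complex.normSq_apply]; ring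
  simp only [e, Complex.re_sum, Complex.im_sum, Complex.re_ofReal_mul, Complex.im_ofReal_mul,
    add_div, Finset.sum_add_distrib]
  exact add_le_add (real fun p => (A p).re) (real fun p => (A p).im)

end Vale.Agent.P359.Gap.Average
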