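import Vale.Agent.P359.Gap.Average.Hull
import Vale.Agent.P359.Gap.Average.Pauli

/-!
# P359, gap, module M4: quadratic forms of the averaging argument
-/

open Finset Matrix
open scoped Kronecker

namespace Vale.Agent.P359.Gap.Average

variable {K Q : ℕ}

lemma kappa_pos {r a b : ℕ} (ha : r ≤ a) (hb : r ≤ b) : 0 < kappa r a b := by
  have h1 := Nat.choose_pos ha
  have h2 := Nat.choose_pos hb
  have h3 := Nat.choose_pos (n := a + b - r + 1) (k := r) (by omega)
  unfold kappa; positivity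

lemma kappa_eq_zero {r a b : ℕ} (hb : a < r ∨ b < r) : kappa r a b = 0 := by
  rcases hb with h | h <;> simp [kappa, Nat.choose_eq_zero_of_lt h]

lemma Jc_eq_zero {r a b i j k : ℕ} (h : i + j ≠ k + r) : Jc r a b i j k = 0 := by
  have : jcoef r a b i j k = 0 := Finset.sum_eq_zero fun l hl => by
    have hl' := Finset.mem_range.1 hl
    rw [if_neg]
    rintro ⟨h1, h2, h3⟩
    omega
  simp [Jc, this]

/-- Intertwining, entrywise, on the column `l` of a good family. -/
lemma inter_apply {U : Fam} (hU : Good U) {r a b c : ℕ} (ha : r ≤ a) (hb : r ≤ b)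
    (hc : c = a + b - 2 * r) (i : Fin (a + 1)) (j : Fin (b + 1)) (l : Fin (c + 1)) :
    ∑ k : Fin (c + 1), (Jc r a b i j k : ℂ) * U c k l
      = ∑ i' : Fin (a + 1), ∑ j' : Fin (b + 1), U a i i' * U b j j' * (Jc r a b i' j' l : ℂ) := by
  subst hc
  have h := congrFun (congrFun (hU.inter r a b ha hb) (i, j)) l
  simp only [Matrix.mul_apply, kroneckerMap_apply, Jm, Fintype.sum_prod_type] at h
  exact h.symm

lemma col_norm {U : Fam} (hU : Good U) (c : ℕ) (i : Fin (c + 1)) :
    ∑ x, ‖star (U c x i)‖ ^ 2 = 1 := by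
  have := congrArg Complex.re (congrFun (congrFun (hU.unit c) i) i)
  simp only [Matrix.mul_apply, conjTranspose_apply, Complex.re_sum, Matrix.one_apply_eq,
    Complex.one_re] at this
  rw [← this]
  refine Finset.sum_congr rfl fun a _ => ?_
  rw [norm_star, ← Complex.normSq_eq_norm_sq, Complex.normSq_apply]
  simp [Complex.mul_re]

/-- The real quadratic form of a rank-one projection. -/
lemma quad_proj {n : ℕ} (u : Fin n → ℂ) (w : Fin n → ℝ) :
    ∑ i, ∑ j, (u i * star (u j)).re * (w i * w j) = ‖∑ i, star (u i) * (w i : ℂ)‖ ^ 2 := by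
  have h : ((‖∑ i, star (u i) * (w i : ℂ)‖ ^ 2 : ℝ) : ℂ)
      = (∑ j, star (u j) * (w j : ℂ)) * star (∑ i, star (u i) * (w i : ℂ)) := by
    simpa using (Complex.mul_conj' (∑ i, star (u i) * (w i : ℂ))).symm
  have h' := congrArg Complex.re h
  rw [Complex.ofReal_re] at h'
  rw [h', star_sum, Finset.mul_sum, Complex.re_sum]
  refine Finset.sum_congr rfl fun i _ => ?_
  rw [Finset.sum_mul, Complex.re_sum]
  refine Finset.sum_congr rfl fun j _ => ?_
  simp [Complex.mul_re, Complex.mul_im]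
  ring

/-- The contraction of the impurity with a vector. -/
noncomputable def contr (u : Fin (impChg Q + 1) → ℂ) (ψ : ImpState K Q) (c : Config K Q) : ℂ :=
  ∑ M : Fin (impChg Q + 1), star (u M) * (ψ M c : ℂ)

lemma contr_antiOn {ψ : ImpState K Q} (hψ : ∀ M, IsAntisym (ψ M))
    (u : Fin (impChg Q + 1) → ℂ) : AntiOn univ (contr u ψ) := by
  intro a _ b _ hab c
  simp only [contr, ← Finset.sum_neg_distrib]
  refine Finset.sum_congr rfl fun M _ => ?_
  rw [hψ M c (Equiv.swap a b), Equiv.Perm.sign_swap hab]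
  simp

/-- The norm form of the impurity index. -/
noncomputable def quadN (ψ : ImpState K Q)
    (X : Matrix (Fin (impChg Q + 1)) (Fin (impChg Q + 1)) ℂ) : ℝ :=
  ∑ i, ∑ j, (X i j).re * ∑ c, ψ i c * ψ j c

lemma quadN_scalar (ψ : ImpState K Q) (t : ℝ) :
    quadN ψ ((t : ℂ) • 1) = t * impNormSq ψ := by
  simp only [quadN, impNormSq, Finset.sum_range, Finset.mul_sum]
  refine Finset.sum_congr rfl fun i _ => ?_
  rw [Finset.sum_eq_single i (fun j _ hj => by simp [Matrix.one_apply_ne' hj])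
    (by simp)]
  refine Finset.sum_congr rfl fun c _ => ?_
  simp [sq]

lemma quadN_proj (ψ : ImpState K Q) (u : Fin (impChg Q + 1) → ℂ) :
    quadN ψ (vecMulVec u (fun a => star (u a))) = ∑ c, ‖contr u ψ c‖ ^ 2 := by
  simp only [contr, ← quad_proj u, quadN, vecMulVec_apply, Finset.mul_sum]
  conv_rhs => rw [Finset.sum_comm]
  exact Finset.sum_congr rfl fun i _ => Finset.sum_comm

/-- The form of a channel vector, at a scalar and at a rank-one projection. -/
noncomputable def quadV {n : ℕ} (w : Fin n → ℝ) (X : Matrix (Fin n) (Fin n) ℂ) : ℝ :=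
  ∑ i, ∑ j, (X i j).re * (w i * w j)

lemma quadV_scalar {n : ℕ} (w : Fin n → ℝ) (t : ℝ) :
    quadV w ((t : ℂ) • 1) = t * ∑ i, w i ^ 2 := by
  simp only [quadV, Finset.mul_sum]
  refine Finset.sum_congr rfl fun i _ => ?_
  rw [Finset.sum_eq_single i (fun j _ hj => by simp [Matrix.one_apply_ne' hj]) (by simp)]
  simp [sq]

lemma quadV_proj {n : ℕ} (w : Fin n → ℝ) (u : Fin n → ℂ) :
    quadV w (vecMulVec u (fun a => star (u a))) = ‖∑ i, star (u i) * (w i : ℂ)‖ ^ 2 := by
  simp only [quadV, vecMulVec_apply, ← quad_proj u]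

lemma quadN_add (ψ : ImpState K Q) (X Y) : quadN ψ (X + Y) = quadN ψ X + quadN ψ Y := by
  simp [quadN, add_mul, Finset.sum_add_distrib]

lemma quadN_smul (ψ : ImpState K Q) (t : ℝ) (X) : quadN ψ (t • X) = t * quadN ψ X := by
  simp [quadN, Finset.mul_sum, mul_assoc]

lemma quadV_add {n : ℕ} (w : Fin n → ℝ) (X Y) : quadV w (X + Y) = quadV w X + quadV w Y := by
  simp [quadV, add_mul, Finset.sum_add_distrib]

lemma quadV_smul {n : ℕ} (w : Fin n → ℝ) (t : ℝ) (X) : quadV w (t • X) = t * quadV w X := by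
  simp [quadV, Finset.mul_sum, mul_assoc]

/-- `quadN` as a linear map. -/
noncomputable def quadNₗ (ψ : ImpState K Q) :
    Matrix (Fin (impChg Q + 1)) (Fin (impChg Q + 1)) ℂ →ₗ[ℝ] ℝ where
  toFun := quadN ψ
  map_add' := quadN_add ψ
  map_smul' := quadN_smul ψ

/-- `quadV` as a linear map. -/
noncomputable def quadVₗ {n : ℕ} (w : Fin n → ℝ) : Matrix (Fin n) (Fin n) ℂ →ₗ[ℝ] ℝ where
  toFun := quadV w
  map_add' := quadV_add w
  map_smul' := quadV_smul w

end Vale.Agent.P359.Gap.Average
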