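import Vale.Agent.P359.Gap.Core

/-!
# P359, gap, module M4: averaging over a family of unitary symmetries

A real-linear functional that is nonnegative on the orbit of a tuple of rank-one projections
(one on each of finitely many charges) under a family of unitaries closed under the one-parameter
groups of the two ladder combinations is nonnegative on the tuple of normalised identities:
the element of least Frobenius norm of the closed convex hull of the orbit commutes with the
ladder operators, so it is scalar.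
-/

open Finset Matrix
open scoped Kronecker

namespace Vale.Agent.P359.Gap.Average

/-- A family of square matrices, one for each charge. -/
abbrev Fam := (c : ℕ) → Matrix (Fin (c + 1)) (Fin (c + 1)) ℂ

/-- The equivariant map `Jc r a b` as a matrix. -/
noncomputable def Jm (r a b : ℕ) : Matrix (Fin (a + 1) × Fin (b + 1)) (Fin (a + b - 2 * r + 1)) ℂ :=
  fun p k => (Jc r a b p.1 p.2 k : ℂ)

/-- Unitary families intertwined by all `Jm`. -/
structure Good (U : Fam) : Prop where
  unit : ∀ c, (U c)ᴴ * U c = 1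
  inter : ∀ r a b, r ≤ a → r ≤ b → (U a ⊗ₖ U b) * Jm r a b = Jm r a b * U (a + b - 2 * r)

lemma Good.one : Good (fun _ => 1) where
  unit c := by simp
  inter r a b _ _ := by simp

lemma Good.mul {U V : Fam} (hU : Good U) (hV : Good V) : Good (fun c => U c * V c) where
  unit c := by
    rw [conjTranspose_mul, Matrix.mul_assoc, ← Matrix.mul_assoc (U c)ᴴ, hU.unit, Matrix.one_mul,
      hV.unit]
  inter r a b ha hb := by
    rw [mul_kronecker_mul, Matrix.mul_assoc, hV.inter r a b ha hb, ← Matrix.mul_assoc,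
      hU.inter r a b ha hb, Matrix.mul_assoc]

/-- Lowering as a matrix. -/
noncomputable def Em (c : ℕ) : Matrix (Fin (c + 1)) (Fin (c + 1)) ℂ :=
  fun i k => if (i : ℕ) + 1 = k then (lower c i : ℂ) else 0

/-- The two generators `E - F` and `i (E + F)`. -/
noncomputable def gen : Bool → Fam
  | false => fun c => Em c - (Em c)ᵀ
  | true => fun c => Complex.I • (Em c + (Em c)ᵀ)

lemma Em_real (c : ℕ) : (Em c)ᴴ = (Em c)ᵀ := by
  ext i k
  simp only [conjTranspose_apply, transpose_apply, Em]
  split_ifs <;> simp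

lemma gen_skew (b : Bool) (c : ℕ) : (gen b c)ᴴ = -gen b c := by
  have h := Em_real c
  have h' : ((Em c)ᵀ)ᴴ = Em c := by rw [← h, conjTranspose_conjTranspose]
  cases b
  · simp [gen, h, h']
  · simp [gen, h, h', add_comm]

/-- The orbit element: rank-one projections on the columns `k i`. -/
noncomputable def proj {ι : Type} (ch : ι → ℕ) (k : ∀ i, Fin (ch i + 1)) (U : Fam) (i : ι) :
    Matrix (Fin (ch i + 1)) (Fin (ch i + 1)) ℂ :=
  vecMulVec (fun a => U (ch i) a (k i)) (fun a => star (U (ch i) a (k i)))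

section norms

open scoped Matrix.Norms.Operator

lemma exp_intertwine {m n : Type} [Fintype m] [DecidableEq m] [Fintype n] [DecidableEq n]
    {A : Matrix m m ℂ} {B : Matrix n n ℂ} {J : Matrix m n ℂ} (h : A * J = J * B) :
    NormedSpace.exp A * J = J * NormedSpace.exp B := by
  have hp : ∀ k : ℕ, A ^ k * J = J * B ^ k := by
    intro k
    induction k with
    | zero => simp
    | succ k ih =>
      rw [pow_succ, pow_succ, Matrix.mul_assoc, h, ← Matrix.mul_assoc, ih, Matrix.mul_assoc]
  have h1 := (NormedSpace.exp_series_hasSum_exp' (𝕂 := ℂ) A).map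
    (AddMonoidHom.mk' (fun X : Matrix m m ℂ => X * J) (fun X Y => Matrix.add_mul X Y J))
    (continuous_id.matrix_mul continuous_const)
  have h2 := (NormedSpace.exp_series_hasSum_exp' (𝕂 := ℂ) B).map
    (AddMonoidHom.mk' (fun X : Matrix n n ℂ => J * X) (fun X Y => Matrix.mul_add J X Y))
    (continuous_const.matrix_mul continuous_id)
  simp only [Function.comp_def, AddMonoidHom.mk'_apply, Matrix.smul_mul, Matrix.mul_smul, hp]
    at h1 h2
  exact h1.unique h2

lemma exp_kron_one {m n : Type} [Fintype m] [DecidableEq m] [Fintype n] [DecidableEq n]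
    (A : Matrix m m ℂ) :
    NormedSpace.exp (A ⊗ₖ (1 : Matrix n n ℂ)) = NormedSpace.exp A ⊗ₖ (1 : Matrix n n ℂ) := by
  have hp : ∀ k : ℕ, (A ^ k) ⊗ₖ (1 : Matrix n n ℂ) = (A ⊗ₖ (1 : Matrix n n ℂ)) ^ k := by
    intro k
    induction k with
    | zero => simp
    | succ k ih => rw [pow_succ, pow_succ, ← ih, ← mul_kronecker_mul, Matrix.mul_one]
  have hc : Continuous fun X : Matrix m m ℂ => X ⊗ₖ (1 : Matrix n n ℂ) :=
    continuous_matrix fun i j => by
      exact (continuous_id.matrix_elem i.1 j.1).mul continuous_const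
  have h1 := (NormedSpace.exp_series_hasSum_exp' (𝕂 := ℂ) A).map
    (AddMonoidHom.mk' (fun X : Matrix m m ℂ => X ⊗ₖ (1 : Matrix n n ℂ))
      (fun X Y => add_kronecker X Y _)) hc
  refine (NormedSpace.exp_series_hasSum_exp' (𝕂 := ℂ) (A ⊗ₖ (1 : Matrix n n ℂ))).unique ?_
  simp only [Function.comp_def, AddMonoidHom.mk'_apply, smul_kronecker, hp] at h1
  exact h1

lemma exp_one_kron {m n : Type} [Fintype m] [DecidableEq m] [Fintype n] [DecidableEq n]
    (B : Matrix n n ℂ) :
    NormedSpace.exp ((1 : Matrix m m ℂ) ⊗ₖ B) = (1 : Matrix m m ℂ) ⊗ₖ NormedSpace.exp B := by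
  have hp : ∀ k : ℕ, (1 : Matrix m m ℂ) ⊗ₖ (B ^ k) = ((1 : Matrix m m ℂ) ⊗ₖ B) ^ k := by
    intro k
    induction k with
    | zero => simp
    | succ k ih => rw [pow_succ, pow_succ, ← ih, ← mul_kronecker_mul, Matrix.mul_one]
  have hc : Continuous fun X : Matrix n n ℂ => (1 : Matrix m m ℂ) ⊗ₖ X :=
    continuous_matrix fun i j => by
      exact continuous_const.mul (continuous_id.matrix_elem i.2 j.2)
  have h1 := (NormedSpace.exp_series_hasSum_exp' (𝕂 := ℂ) B).map
    (AddMonoidHom.mk' (fun X : Matrix n n ℂ => (1 : Matrix m m ℂ) ⊗ₖ X)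
      (fun X Y => kronecker_add _ X Y)) hc
  refine (NormedSpace.exp_series_hasSum_exp' (𝕂 := ℂ) ((1 : Matrix m m ℂ) ⊗ₖ B)).unique ?_
  simp only [Function.comp_def, AddMonoidHom.mk'_apply, kronecker_smul, hp] at h1
  exact h1

/-- The one-parameter group of a generator is a good family. -/
lemma good_exp (A : Fam) (hs : ∀ c, (A c)ᴴ = -A c)
    (hi : ∀ r a b, r ≤ a → r ≤ b →
      (A a ⊗ₖ 1 + 1 ⊗ₖ A b) * Jm r a b = Jm r a b * A (a + b - 2 * r))
    (t : ℝ) : Good (fun c => NormedSpace.exp (t • A c)) where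
  unit c := by
    have h : (t • A c)ᴴ = -(t • A c) := by simp [hs]
    rw [← Matrix.exp_conjTranspose, h,
      ← Matrix.exp_add_of_commute _ _ ((Commute.refl (t • A c)).neg_left), neg_add_cancel,
      NormedSpace.exp_zero]
  inter r a b ha hb := by
    have hc : Commute ((t • A a) ⊗ₖ (1 : Matrix (Fin (b + 1)) (Fin (b + 1)) ℂ))
        ((1 : Matrix (Fin (a + 1)) (Fin (a + 1)) ℂ) ⊗ₖ (t • A b)) := by
      simp [Commute, SemiconjBy, ← mul_kronecker_mul]
    have hx : NormedSpace.exp (t • A a) ⊗ₖ NormedSpace.exp (t • A b)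
        = NormedSpace.exp ((t • A a) ⊗ₖ (1 : Matrix (Fin (b + 1)) (Fin (b + 1)) ℂ) +
            (1 : Matrix (Fin (a + 1)) (Fin (a + 1)) ℂ) ⊗ₖ (t • A b)) := by
      rw [Matrix.exp_add_of_commute _ _ hc, exp_kron_one, exp_one_kron, ← mul_kronecker_mul,
        Matrix.mul_one, Matrix.one_mul]
    rw [hx]
    refine exp_intertwine ?_
    rw [smul_kronecker, kronecker_smul, ← smul_add, Matrix.smul_mul, hi r a b ha hb,
      Matrix.mul_smul]

lemma commute_of_exp {c : ℕ} {A X : Matrix (Fin (c + 1)) (Fin (c + 1)) ℂ}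
    (h : ∀ t : ℝ, NormedSpace.exp (t • A) * X = X * NormedSpace.exp (t • A)) :
    A * X = X * A := by
  have h1 := (hasDerivAt_exp_smul_const (𝕂 := ℝ) A 0).mul_const X
  have h2 := (hasDerivAt_exp_smul_const (𝕂 := ℝ) A 0).const_mul X
  have he : (fun u : ℝ => NormedSpace.exp (u • A) * X) = fun u => X * NormedSpace.exp (u • A) :=
    funext h
  have h1' : HasDerivAt (fun u : ℝ => NormedSpace.exp (u • A) * X)
      (NormedSpace.exp ((0 : ℝ) • A) * A * X) 0 := h1
  rw [he] at h1'
  have := h1'.unique h2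
  simpa [NormedSpace.exp_zero] using this

end norms

lemma Em_mulVec_zero {c : ℕ} {v : Fin (c + 1) → ℂ} (h : Em c *ᵥ v = 0) :
    ∀ i : Fin (c + 1), i ≠ 0 → v i = 0 := by
  intro i hi
  obtain ⟨j, rfl⟩ := Fin.exists_succ_eq.2 hi
  have hj := congrFun h j.castSucc
  rw [mulVec, dotProduct, Finset.sum_eq_single j.succ] at hj
  · simp only [Em, Fin.val_castSucc, Fin.val_succ, if_true, Pi.zero_apply, mul_eq_zero,
      Complex.ofReal_eq_zero] at hj
    refine hj.resolve_left (Real.sqrt_ne_zero'.2 ?_)
    have : ((j : ℕ) : ℝ) + 1 ≤ c := by exact_mod_cast j.isLt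
    have : (0 : ℝ) ≤ (j : ℕ) := Nat.cast_nonneg _
    nlinarith
  · intro x _ hx
    have : ¬ ((j.castSucc : Fin (c + 1)) : ℕ) + 1 = x := fun e => hx (Fin.ext (by simp [← e]))
    simp only [Em, if_neg this, zero_mul]
  · simp

lemma scalar_of_commute {c : ℕ} {X : Matrix (Fin (c + 1)) (Fin (c + 1)) ℂ}
    (hE : Em c * X = X * Em c) (hF : (Em c)ᵀ * X = X * (Em c)ᵀ) :
    X = X 0 0 • 1 := by
  have h0 : ∀ i, i ≠ 0 → X i 0 = 0 := by
    refine Em_mulVec_zero ?_
    funext i
    have := congrFun (congrFun hE i) 0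
    rw [Matrix.mul_apply, Matrix.mul_apply] at this
    simpa [mulVec, dotProduct, Em] using this
  have key : ∀ k : Fin (c + 1), ∀ i, X i k = X 0 0 * (if i = k then 1 else 0) := by
    intro k
    induction k using Fin.induction with
    | zero =>
      intro i
      by_cases hi : i = 0
      · simp [hi]
      · simp [hi, h0 i hi]
    | succ j ih =>
      intro i
      have := congrFun (congrFun hF i) j.castSucc
      rw [Matrix.mul_apply, Matrix.mul_apply] at this
      rw [Finset.sum_eq_single j.castSucc (fun x _ hx => by simp [ih, hx]) (by simp),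
        Finset.sum_eq_single j.succ (fun x _ hx => by
          have : ¬ ((j.castSucc : Fin (c + 1)) : ℕ) + 1 = x := fun e => hx (Fin.ext (by simp [← e]))
          simp only [transpose_apply, Em, if_neg this, mul_zero]) (by simp)] at this
      simp only [transpose_apply, Em, ih] at this
      have hl : (lower c (j.castSucc : Fin (c + 1)) : ℂ) ≠ 0 := by
        simp only [ne_eq, Complex.ofReal_eq_zero, lower]
        refine Real.sqrt_ne_zero'.2 ?_
        have : ((j : ℕ) : ℝ) + 1 ≤ c := by exact_mod_cast j.isLt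
        have : (0 : ℝ) ≤ (j : ℕ) := Nat.cast_nonneg _
        simp only [Fin.val_castSucc]
        nlinarith
      simp only [Fin.val_castSucc, Fin.val_succ, if_true, mul_one] at this hl
      by_cases hi : i = j.succ
      · subst hi
        simp only [Fin.val_succ, if_true] at this
        simp only [if_true, mul_one]
        exact mul_right_cancel₀ hl (by rw [← this]; ring)
      · have hne : ¬ ((j : ℕ) + 1 = (i : ℕ)) := fun e => hi (Fin.ext (by simp [e]))
        rw [if_neg hne, zero_mul] at this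
        simp only [if_neg hi, mul_zero]
        exact (mul_eq_zero.1 this.symm).resolve_right hl
  ext i k
  simp [key k i, Matrix.one_apply]

/-- Frobenius norm squared of a tuple. -/
noncomputable def frob {ι : Type} [Fintype ι] {ch : ι → ℕ}
    (X : ∀ i, Matrix (Fin (ch i + 1)) (Fin (ch i + 1)) ℂ) : ℝ :=
  ∑ i, ∑ a, ∑ b, ‖X i a b‖ ^ 2

lemma frob_conj {ι : Type} [Fintype ι] {ch : ι → ℕ}
    (X : ∀ i, Matrix (Fin (ch i + 1)) (Fin (ch i + 1)) ℂ) {U : Fam} (hU : Good U) :
    frob (fun i => U (ch i) * X i * (U (ch i))ᴴ) = frob X := by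
  have h : ∀ {c : ℕ} (Y : Matrix (Fin (c + 1)) (Fin (c + 1)) ℂ),
      ∑ a, ∑ b, ‖Y a b‖ ^ 2 = ((Yᴴ * Y).trace).re := by
    intro c Y
    simp only [trace, diag_apply, Matrix.mul_apply, conjTranspose_apply, Complex.re_sum]
    rw [Finset.sum_comm]
    refine Finset.sum_congr rfl fun b _ => Finset.sum_congr rfl fun a _ => ?_
    rw [← Complex.normSq_eq_norm_sq, Complex.normSq_apply]
    simp [Complex.mul_re]
  refine Finset.sum_congr rfl fun i _ => ?_
  rw [h, h]
  congr 1
  have hu := hU.unit (ch i)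
  set V := U (ch i)
  rw [conjTranspose_mul, conjTranspose_mul, conjTranspose_conjTranspose,
    show V * ((X i)ᴴ * Vᴴ) * (V * X i * Vᴴ) = V * ((X i)ᴴ * ((Vᴴ * V) * X i) * Vᴴ) by
      simp only [Matrix.mul_assoc],
    hu, Matrix.one_mul, trace_mul_comm, Matrix.mul_assoc, hu, Matrix.mul_one]

variable {ι : Type} [Fintype ι]

/-- **Averaging.** -/
theorem average_nonneg (hgen : ∀ (b : Bool) (r a c : ℕ), r ≤ a → r ≤ c →
      (gen b a ⊗ₖ 1 + 1 ⊗ₖ gen b c) * Jm r a c = Jm r a c * gen b (a + c - 2 * r))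
    (ch : ι → ℕ) (k : ∀ i, Fin (ch i + 1))
    (L : (∀ i, Matrix (Fin (ch i + 1)) (Fin (ch i + 1)) ℂ) →ₗ[ℝ] ℝ)
    (h : ∀ U, Good U → 0 ≤ L (proj ch k U)) :
    0 ≤ L (fun i => ((ch i : ℂ) + 1)⁻¹ • 1) := by
  set S : Set (∀ i, Matrix (Fin (ch i + 1)) (Fin (ch i + 1)) ℂ) := proj ch k '' {U | Good U}
    with hS
  set C := closure (convexHull ℝ S) with hC
  have hSne : S.Nonempty := ⟨_, _, Good.one, rfl⟩
  have hCne : C.Nonempty := hSne.convexHull.closure
  have hconv : Convex ℝ C := (convex_convexHull ℝ S).closure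
  have hSC : S ⊆ C := (subset_convexHull ℝ S).trans subset_closure
  have hcol : ∀ U, Good U → ∀ i, ∑ a, ‖U (ch i) a (k i)‖ ^ 2 = 1 := by
    intro U hU i
    have := congrArg Complex.re (congrFun (congrFun (hU.unit (ch i)) (k i)) (k i))
    simp only [Matrix.mul_apply, conjTranspose_apply, Complex.re_sum, Matrix.one_apply_eq,
      Complex.one_re] at this
    rw [← this]
    refine Finset.sum_congr rfl fun a _ => ?_
    rw [← Complex.normSq_eq_norm_sq, Complex.normSq_apply]
    simp [Complex.mul_re]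
  -- compactness
  have hK : ∀ X ∈ S, ∀ i a b, X i a b ∈ Metric.closedBall (0 : ℂ) 1 := by
    rintro _ ⟨U, hU, rfl⟩ i a b
    have e := hcol U hU i
    have ha : ∀ a, ‖U (ch i) a (k i)‖ ≤ 1 := fun a => by
      have : ‖U (ch i) a (k i)‖ ^ 2 ≤ 1 := e ▸ Finset.single_le_sum
        (f := fun a => ‖U (ch i) a (k i)‖ ^ 2) (fun _ _ => by positivity) (mem_univ a)
      exact (abs_le_of_sq_le_sq' (by simpa using this) zero_le_one).2
    simpa [proj, vecMulVec_apply] using mul_le_one₀ (ha a) (norm_nonneg _) (ha b)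
  let box : Set (∀ i, Matrix (Fin (ch i + 1)) (Fin (ch i + 1)) ℂ) :=
    Set.univ.pi fun i => Set.univ.pi fun _ => Set.univ.pi fun _ => Metric.closedBall (0 : ℂ) 1
  have hbox : IsCompact box := isCompact_univ_pi fun i => isCompact_univ_pi fun _ =>
    isCompact_univ_pi fun _ => isCompact_closedBall _ _
  have hboxc : Convex ℝ box := convex_pi fun i _ => convex_pi fun _ _ => convex_pi fun _ _ =>
    convex_closedBall _ _
  have hCbox : C ⊆ box := closure_minimal
    (convexHull_min (fun X hX i _ a _ b _ => hK X hX i a b) hboxc) hbox.isClosed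
  have hCc : IsCompact C := hbox.of_isClosed_subset isClosed_closure hCbox
  have hfc : Continuous (frob (ch := ch)) := by
    unfold frob; fun_prop
  obtain ⟨X, hX, hmin⟩ := hCc.exists_isMinOn hCne hfc.continuousOn
  have huniq : ∀ Y ∈ C, frob Y = frob X → Y = X := by
    intro Y hY he
    have hmid : (1/2 : ℝ) • X + (1/2 : ℝ) • Y ∈ C :=
      hconv hX hY (by norm_num) (by norm_num) (by norm_num)
    have hle : frob X ≤ frob ((1/2 : ℝ) • X + (1/2 : ℝ) • Y) := hmin hmid
    have hpar : frob ((1/2 : ℝ) • X + (1/2 : ℝ) • Y) + frob (X - Y) / 4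
        = (frob X + frob Y) / 2 := by
      simp only [frob, Finset.sum_div, ← Finset.sum_add_distrib, Pi.add_apply, Pi.smul_apply,
        Pi.sub_apply, Matrix.add_apply, Matrix.sub_apply, Matrix.smul_apply]
      refine Finset.sum_congr rfl fun i _ => Finset.sum_congr rfl fun a _ =>
        Finset.sum_congr rfl fun b _ => ?_
      simp only [← Complex.normSq_eq_norm_sq, Complex.normSq_apply, Complex.real_smul,
        Complex.add_re, Complex.add_im, Complex.sub_re, Complex.sub_im, Complex.mul_re,
        Complex.mul_im, Complex.ofReal_re, Complex.ofReal_im]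
      ring
    have hz : frob (X - Y) = 0 := by
      have : (0 : ℝ) ≤ frob (X - Y) := by unfold frob; positivity
      linarith
    funext i
    ext a b
    have h1 := (Finset.sum_eq_zero_iff_of_nonneg fun _ _ => by positivity).1 hz i (mem_univ _)
    have h2 := (Finset.sum_eq_zero_iff_of_nonneg fun _ _ => by positivity).1 h1 a (mem_univ _)
    have h3 := (Finset.sum_eq_zero_iff_of_nonneg fun _ _ => by positivity).1 h2 b (mem_univ _)
    simp only [pow_eq_zero_iff two_ne_zero, norm_eq_zero, Pi.sub_apply, Matrix.sub_apply,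
      sub_eq_zero] at h3
    exact h3.symm
  -- invariance
  have hinv : ∀ V, Good V → ∀ i, V (ch i) * X i = X i * V (ch i) := by
    intro V hV
    let T : (∀ i, Matrix (Fin (ch i + 1)) (Fin (ch i + 1)) ℂ) →ₗ[ℝ]
        (∀ i, Matrix (Fin (ch i + 1)) (Fin (ch i + 1)) ℂ) :=
      { toFun := fun Y i => V (ch i) * Y i * (V (ch i))ᴴ
        map_add' := fun Y Z => by funext i; simp [Matrix.mul_add, Matrix.add_mul]
        map_smul' := fun t Y => by funext i; simp }
    have hTS : T '' S ⊆ S := by
      rintro _ ⟨_, ⟨U, hU, rfl⟩, rfl⟩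
      refine ⟨_, hV.mul hU, ?_⟩
      funext i
      change proj ch k _ i = V (ch i) * proj ch k U i * (V (ch i))ᴴ
      simp only [proj]
      rw [mul_vecMulVec, vecMulVec_mul]
      congr 1
      funext a
      simp [vecMul, dotProduct, Matrix.mul_apply, mul_comm]
    have hTc : Continuous T := T.continuous_of_finiteDimensional
    have hTX : T X ∈ C := by
      have h1 : T '' C ⊆ closure (T '' convexHull ℝ S) := image_closure_subset_closure_image hTc
      rw [LinearMap.image_convexHull] at h1
      exact closure_mono (convexHull_mono hTS) (h1 ⟨X, hX, rfl⟩)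
    have hfix := huniq _ hTX (frob_conj X hV)
    intro i
    have := congrArg (· * V (ch i)) (congrFun hfix i)
    simpa [T, Matrix.mul_assoc, hV.unit] using this
  have htr : ∀ i, (X i).trace = 1 := by
    intro i
    have hlin : IsClosed {Y : ∀ i, Matrix (Fin (ch i + 1)) (Fin (ch i + 1)) ℂ | (Y i).trace = 1} :=
      isClosed_eq (continuous_id.matrix_trace.comp (continuous_apply i)) continuous_const
    refine closure_minimal (convexHull_min ?_ ?_) hlin hX
    · rintro _ ⟨U, hU, rfl⟩
      simp only [Set.mem_ofPred_eq, proj, trace_vecMulVec, dotProduct]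
      have : ∀ a, U (ch i) a (k i) * star (U (ch i) a (k i))
          = ((‖U (ch i) a (k i)‖ ^ 2 : ℝ) : ℂ) := fun a => by
        simpa using Complex.mul_conj' (U (ch i) a (k i))
      simp only [this, ← Complex.ofReal_sum, hcol U hU i, Complex.ofReal_one]
    · intro Y hY Z hZ s t _ _ hst
      simp only [Set.mem_ofPred_eq, Pi.add_apply, Pi.smul_apply, trace_add, trace_smul] at *
      rw [hY, hZ, ← add_smul, hst, one_smul]
  have hXeq : X = fun i => ((ch i : ℂ) + 1)⁻¹ • 1 := by
    funext i
    have hg : ∀ b, gen b (ch i) * X i = X i * gen b (ch i) := fun b =>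
      commute_of_exp fun t => hinv _ (good_exp (gen b) (gen_skew b) (hgen b) t) i
    have h1 := hg false
    have h2 := hg true
    simp only [gen, Matrix.sub_mul, Matrix.mul_sub, Matrix.smul_mul, Matrix.mul_smul] at h1 h2
    have h2' := smul_right_injective _ Complex.I_ne_zero h2
    rw [Matrix.add_mul, Matrix.mul_add] at h2'
    have hE : Em (ch i) * X i = X i * Em (ch i) := by
      have := congrArg₂ (· + ·) h1 h2'
      simp only [sub_add_add_cancel] at this
      rw [← two_smul ℂ, ← two_smul ℂ (X i * _)] at this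
      exact smul_right_injective _ (two_ne_zero' ℂ) this
    have hF : (Em (ch i))ᵀ * X i = X i * (Em (ch i))ᵀ := by
      rw [hE] at h2'; exact add_left_cancel h2'
    have hs := scalar_of_commute hE hF
    have ht := htr i
    rw [hs, trace_smul, trace_one, Fintype.card_fin, smul_eq_mul] at ht
    have hx : X i 0 0 = ((ch i : ℂ) + 1)⁻¹ := eq_inv_of_mul_eq_one_left (by simpa using ht)
    rw [hx] at hs
    exact hs
  have hL : ∀ Y ∈ C, 0 ≤ L Y := closure_minimal
    (convexHull_min (by rintro _ ⟨U, hU, rfl⟩; exact h U hU)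
      (convex_halfSpace_ge L.isLinear 0))
    (isClosed_le continuous_const L.continuous_of_finiteDimensional)
  exact hXeq ▸ hL X hX

end Vale.Agent.P359.Gap.Average
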