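import Vale.Agent.P359.Gap.Average.Common

/-!
# P359, gap, module M4: the sum over particles of the weight of one channel
-/

open Finset Matrix
open scoped Kronecker

namespace Vale.Agent.P359.Gap.Average

variable {K Q : ℕ}

/-- Generators intertwine. -/
def GenInter : Prop := ∀ (b : Bool) (r a c : ℕ), r ≤ a → r ≤ c →
  (gen b a ⊗ₖ 1 + 1 ⊗ₖ gen b c) * Jm r a c = Jm r a c * gen b (a + c - 2 * r)

/-- The columns of all `Jc r a b` are orthogonal, with squared norm `kappa r a b`. -/
def JOrth : Prop := ∀ r r' a b k k' : ℕ, r ≤ a → r ≤ b → r' ≤ a → r' ≤ b →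
  k ≤ a + b - 2 * r → k' ≤ a + b - 2 * r' →
  (∑ i : Fin (a + 1), ∑ j : Fin (b + 1), Jc r a b i j k * Jc r' a b i j k')
    = if r = r' ∧ k = k' then kappa r a b else 0

/-- One slot, one rotated highest weight vector. -/
lemma amp_rot {ψ : ImpState K Q} {U : Fam} (hU : Good U) {r c' : ℕ} (hrW : r ≤ impChg Q)
    (hrQ : r ≤ Q) (hc : c' = impChg Q + Q - 2 * r) (a : Fin K) (c : Config K Q) :
    ∑ Z : Fin (c' + 1), star (U c' Z 0) * (chanAmp r a ψ Z c : ℂ)
      = ∑ p : Fin (impChg Q + 1) × Fin (Q + 1), (Jc r (impChg Q) Q p.1 p.2 0 : ℂ) *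
          amp (fun x => star (U Q x p.2)) a (contr (fun M => U (impChg Q) M p.1) ψ) c := by
  have hi : ∀ (M : Fin (impChg Q + 1)) (x : Fin (Q + 1)),
      ∑ Z : Fin (c' + 1), star (U c' Z 0) * (Jc r (impChg Q) Q M x Z : ℂ)
        = ∑ p : Fin (impChg Q + 1) × Fin (Q + 1), (Jc r (impChg Q) Q p.1 p.2 0 : ℂ) *
            (star (U (impChg Q) M p.1) * star (U Q x p.2)) := by
    intro M x
    have h := congrArg star (inter_apply hU hrW hrQ hc M x 0)
    simp only [star_sum, star_mul', Complex.star_def, Complex.conj_ofReal, Fin.val_zero] at h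
    rw [Fintype.sum_prod_type]
    simp only [Complex.star_def]
    rw [Finset.sum_congr rfl fun Z _ => mul_comm _ _, h]
    exact Finset.sum_congr rfl fun i _ => Finset.sum_congr rfl fun j _ => by ring
  simp only [chanAmp, Finset.sum_range, Complex.ofReal_sum, Complex.ofReal_mul, Finset.mul_sum,
    amp, contr]
  calc ∑ Z : Fin (c' + 1), ∑ M : Fin (impChg Q + 1), ∑ x : Fin (Q + 1),
        star (U c' Z 0) * ((Jc r (impChg Q) Q M x Z : ℂ) * (ψ M (Function.update c a x) : ℂ))
      = ∑ M : Fin (impChg Q + 1), ∑ x : Fin (Q + 1), (ψ M (Function.update c a x) : ℂ) *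
          ∑ Z : Fin (c' + 1), star (U c' Z 0) * (Jc r (impChg Q) Q M x Z : ℂ) := by
        rw [Finset.sum_comm]
        refine Finset.sum_congr rfl fun M _ => ?_
        rw [Finset.sum_comm]
        refine Finset.sum_congr rfl fun x _ => ?_
        rw [Finset.mul_sum]
        exact Finset.sum_congr rfl fun Z _ => by ring
    _ = _ := by
        simp only [hi, Finset.mul_sum]
        rw [Finset.sum_comm]
        refine (Finset.sum_congr rfl fun x _ => Finset.sum_comm).trans ?_
        rw [Finset.sum_comm]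
        refine Finset.sum_congr rfl fun p _ => Finset.sum_congr rfl fun x _ =>
          Finset.sum_congr rfl fun M _ => by ring

lemma chanWeight_sum_le' (hgen : GenInter) (horth : JOrth) {ψ : ImpState K Q}
    (hψ : ∀ M, IsAntisym (ψ M)) {r : ℕ} (hrW : r ≤ impChg Q) (hrQ : r ≤ Q) (hQ : 1 ≤ Q) :
    ∑ a, chanWeight r a ψ
      ≤ ((r : ℝ) + 1) * ((chg Q r : ℝ) + 1) / ((impChg Q : ℝ) + 1) * impNormSq ψ := by
  set c' := chg Q r with hc'
  have hc : c' = impChg Q + Q - 2 * r := by simp only [c', chg, impChg]; omega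
  have hκ := kappa_pos hrW hrQ
  set κ := kappa r (impChg Q) Q with hκdef
  let ch : Option (Fin (r + 1)) → ℕ := fun o => o.elim c' (fun _ => impChg Q)
  let k : ∀ o, Fin (ch o + 1) := fun o => match o with
    | none => 0
    | some M => ⟨M, by simp only [ch, Option.elim_some]; omega⟩
  let T : Matrix (Fin (c' + 1)) (Fin (c' + 1)) ℂ → ℝ := fun X =>
    ∑ a : Fin K, ∑ c ∈ univ.filter (fun c : Config K Q => c a = 0),
      quadV (fun Z : Fin (c' + 1) => chanAmp r a ψ Z c) X
  let L : (∀ o, Matrix (Fin (ch o + 1)) (Fin (ch o + 1)) ℂ) →ₗ[ℝ] ℝ :=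
    κ • (∑ M : Fin (r + 1), (quadNₗ ψ).comp (LinearMap.proj (some M))) -
      ∑ a : Fin K, ∑ c ∈ univ.filter (fun c : Config K Q => c a = 0),
        (quadVₗ (fun Z : Fin (c' + 1) => chanAmp r a ψ Z c)).comp (LinearMap.proj none)
  have hL : ∀ X, L X = κ * (∑ M, quadN ψ (X (some M))) - T (X none) := fun X => by
    simp only [L, T, LinearMap.sub_apply, LinearMap.smul_apply, LinearMap.sum_apply,
      LinearMap.comp_apply, LinearMap.proj_apply, smul_eq_mul]
    rfl
  have key := average_nonneg hgen ch k L ?_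
  · rw [hL] at key
    change 0 ≤ κ * (∑ M : Fin (r + 1), quadN ψ ((((impChg Q : ℕ) : ℂ) + 1)⁻¹ • 1))
      - T ((((c' : ℕ) : ℂ) + 1)⁻¹ • 1) at key
    have e1 : ∀ n : ℕ, (((n : ℕ) : ℂ) + 1)⁻¹ = ((((n : ℝ) + 1)⁻¹ : ℝ) : ℂ) := fun n => by
      push_cast; rfl
    simp only [e1, T, quadN_scalar, quadV_scalar, Finset.sum_const, Finset.card_univ,
      Fintype.card_fin, nsmul_eq_mul, ← Finset.mul_sum] at key
    have e2 : ∑ a : Fin K, ∑ c ∈ univ.filter (fun c : Config K Q => c a = 0),
        ∑ Z : Fin (c' + 1), chanAmp r a ψ Z c ^ 2 = κ * ∑ a, chanWeight r a ψ := by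
      rw [Finset.mul_sum]
      refine Finset.sum_congr rfl fun a _ => ?_
      rw [chanWeight, mul_div_cancel₀ _ hκ.ne', Finset.sum_comm, Finset.sum_range]
    rw [e2] at key
    push_cast at key
    have hp : (0 : ℝ) < (c' : ℝ) + 1 := by positivity
    have hW : (0 : ℝ) < (impChg Q : ℝ) + 1 := by positivity
    have := mul_le_mul_of_nonneg_left (sub_nonneg.1 key) (div_nonneg hp.le hκ.le)
    field_simp at this ⊢
    linarith
  · intro U hU
    rw [hL]
    change 0 ≤ κ * (∑ M : Fin (r + 1), quadN ψ (vecMulVec (fun i => U (impChg Q) i ⟨M, _⟩)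
      (fun i => star (U (impChg Q) i ⟨M, _⟩))))
      - T (vecMulVec (fun i => U c' i 0) (fun i => star (U c' i 0)))
    simp only [T, quadN_proj, quadV_proj, amp_rot hU hrW hrQ hc, sub_nonneg]
    set S := (univ : Finset (Fin (impChg Q + 1) × Fin (Q + 1))).filter
      (fun p => (p.1 : ℕ) + p.2 = r) with hS
    have hb : ∀ (a : Fin K) (c : Config K Q),
        ‖∑ p : Fin (impChg Q + 1) × Fin (Q + 1), (Jc r (impChg Q) Q p.1 p.2 0 : ℂ) *
          amp (fun x => star (U Q x p.2)) a (contr (fun M => U (impChg Q) M p.1) ψ) c‖ ^ 2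
        ≤ κ * ∑ p ∈ S,
          ‖amp (fun x => star (U Q x p.2)) a (contr (fun M => U (impChg Q) M p.1) ψ) c‖ ^ 2 := by
      intro a c
      rw [← Finset.sum_subset (Finset.subset_univ S) fun p _ hp => by
        rw [Jc_eq_zero (by simpa [S] using hp), Complex.ofReal_zero, zero_mul]]
      have hn : ∑ p ∈ S, Jc r (impChg Q) Q p.1 p.2 0 * Jc r (impChg Q) Q p.1 p.2 0 = κ := by
        rw [Finset.sum_subset (Finset.subset_univ S) fun p _ hp => by
          rw [Jc_eq_zero (by simpa [S] using hp), zero_mul], Fintype.sum_prod_type,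
          horth r r _ _ 0 0 hrW hrQ hrW hrQ (Nat.zero_le _) (Nat.zero_le _), if_pos ⟨rfl, rfl⟩]
      have := bessel (ι := Unit) {()} S (fun _ p => Jc r (impChg Q) Q p.1 p.2 0) (fun _ => κ)
        (fun _ _ => hκ) (fun _ _ _ _ => by simpa using hn)
        (fun p => amp (fun x => star (U Q x p.2)) a (contr (fun M => U (impChg Q) M p.1) ψ) c)
      rw [Finset.sum_singleton, div_le_iff₀ hκ] at this
      linarith
    refine (Finset.sum_le_sum fun a _ => Finset.sum_le_sum fun c _ => hb a c).trans ?_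
    simp only [← Finset.mul_sum]
    refine mul_le_mul_of_nonneg_left ?_ hκ.le
    have step : ∀ p ∈ S, ∑ a : Fin K, ∑ c ∈ univ.filter (fun c : Config K Q => c a = 0),
        ‖amp (fun x => star (U Q x p.2)) a (contr (fun M => U (impChg Q) M p.1) ψ) c‖ ^ 2
        ≤ ∑ c, ‖contr (fun M => U (impChg Q) M p.1) ψ c‖ ^ 2 := fun p _ =>
      pauli (contr_antiOn hψ _) _ (col_norm hU Q p.2)
    refine le_trans ?_ ((Finset.sum_le_sum step).trans (le_of_eq ?_))
    · apply le_of_eq
      rw [eq_comm, Finset.sum_comm]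
      exact Finset.sum_congr rfl fun a _ => Finset.sum_comm
    · refine Finset.sum_bij' (fun p hp => (⟨(p.1 : ℕ), by
          have := (Finset.mem_filter.1 hp).2; omega⟩ : Fin (r + 1)))
        (fun M _ => (⟨M, by omega⟩, ⟨r - M, by omega⟩)) ?_ ?_ ?_ ?_ ?_
      · intro p _; simp
      · intro M _; simp [S]; omega
      · intro p hp
        have := (Finset.mem_filter.1 hp).2
        ext <;> simp <;> omega
      · intro M _; simp
      · intro p _; rfl

end Vale.Agent.P359.Gap.Average
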