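import Vale.Agent.P359.Gap.Average.One

/-!
# P359, gap, module M4: the sum over pairs of particles of the weight of one relative degree
-/

open Finset Matrix
open scoped Kronecker Classical

namespace Vale.Agent.P359.Gap.Average

variable {K Q : ℕ}

/-- The component of a pair slice in channel `r` of relative degree `m`. -/
noncomputable def pairChan (m r : ℕ) (f : ℕ → Fin (Q + 1) → Fin (Q + 1) → ℝ) (Z : ℕ) : ℝ :=
  ∑ M ∈ range (impChg Q + 1), ∑ x : Fin (Q + 1), ∑ x' : Fin (Q + 1),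
    ∑ Y ∈ range (chg Q r + 1),
      Jc (m - r) (chg Q r) Q Y x' Z * Jc r (impChg Q) Q M x Y * f M x x'

/-- The highest weight vector of channel `r`, relative degree `m`. -/
noncomputable def gv (Q m r : ℕ) (p : Fin (impChg Q + 1) × Fin (Q + 1) × Fin (Q + 1)) : ℝ :=
  ∑ Y : Fin (chg Q r + 1), Jc (m - r) (chg Q r) Q Y p.2.2 0 * Jc r (impChg Q) Q p.1 p.2.1 Y

lemma gv_supp {m r : ℕ} (hr : r ≤ m) {p : Fin (impChg Q + 1) × Fin (Q + 1) × Fin (Q + 1)}
    (h : (p.1 : ℕ) + p.2.1 + p.2.2 ≠ m) : gv Q m r p = 0 := by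
  refine Finset.sum_eq_zero fun Y _ => ?_
  by_cases h1 : (Y : ℕ) + p.2.2 = 0 + (m - r)
  · rw [Jc_eq_zero (r := r) (by omega), mul_zero]
  · rw [Jc_eq_zero h1, zero_mul]

/-- Valid channels of relative degree `m`. -/
def Valid2 (Q m r : ℕ) : Prop :=
  r ≤ m ∧ r ≤ impChg Q ∧ r ≤ Q ∧ m - r ≤ chg Q r ∧ m - r ≤ Q

lemma gv_orth (horth : JOrth) (hQ : 1 ≤ Q) {m r r' : ℕ} (hr : Valid2 Q m r)
    (hr' : Valid2 Q m r') :
    ∑ p, gv Q m r p * gv Q m r' p
      = if r = r' then kappa r (impChg Q) Q * kappa (m - r) (chg Q r) Q else 0 := by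
  obtain ⟨hm, hW, hrQ, hq, hqQ⟩ := hr
  obtain ⟨hm', hW', hrQ', hq', hqQ'⟩ := hr'
  have e : ∀ s, chg Q s = impChg Q + Q - 2 * s := fun s => by simp only [chg, impChg]; omega
  have h1 : ∑ p, gv Q m r p * gv Q m r' p
      = ∑ Y : Fin (chg Q r + 1), ∑ Y' : Fin (chg Q r' + 1),
          (∑ l : Fin (Q + 1),
            Jc (m - r) (chg Q r) Q Y l 0 * Jc (m - r') (chg Q r') Q Y' l 0) *
          (if r = r' ∧ (Y : ℕ) = Y' then kappa r (impChg Q) Q else 0) := by
    have hh : ∀ (Y : Fin (chg Q r + 1)) (Y' : Fin (chg Q r' + 1)),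
        (if r = r' ∧ (Y : ℕ) = Y' then kappa r (impChg Q) Q else 0)
        = ∑ i : Fin (impChg Q + 1), ∑ j : Fin (Q + 1),
            Jc r (impChg Q) Q i j Y * Jc r' (impChg Q) Q i j Y' := fun Y Y' =>
      (horth r r' _ _ _ _ hW hrQ hW' hrQ' (by have := Y.isLt; have := e r; omega)
        (by have := Y'.isLt; have := e r'; omega)).symm
    simp only [hh, gv, Finset.sum_mul, Finset.mul_sum, Fintype.sum_prod_type]
    conv_rhs => rw [Finset.sum_comm]
    simp only [← Fintype.sum_prod_type']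
    refine Fintype.sum_equiv
      { toFun := fun p => (p.2.2.2.1, p.2.2.2.2, p.1, p.2.1, p.2.2.1),
        invFun := fun p => (p.2.2.1, p.2.2.2.1, p.2.2.2.2, p.1, p.2.1),
        left_inv := fun p => rfl,
        right_inv := fun p => rfl } _ _ ?_
    intro p
    simp only [Equiv.coe_fn_mk]
    ring
  rw [h1]
  by_cases hrr : r = r'
  · subst hrr
    rw [if_pos rfl]
    have h2 := horth (m - r) (m - r) (chg Q r) Q 0 0 hq hqQ hq hqQ (Nat.zero_le _) (Nat.zero_le _)
    rw [if_pos ⟨rfl, rfl⟩] at h2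
    rw [← h2, Finset.mul_sum]
    refine Finset.sum_congr rfl fun Y _ => ?_
    rw [Finset.sum_eq_single Y (fun Y' _ hY => by
      rw [if_neg (fun h => hY (Fin.ext h.2.symm)), mul_zero]) (by simp), if_pos ⟨rfl, rfl⟩]
    ring
  · rw [if_neg hrr]
    exact Finset.sum_eq_zero fun Y _ => Finset.sum_eq_zero fun Y' _ => by
      rw [if_neg (fun h => hrr h.1), mul_zero]

/-- Three rotated orbitals against a pair slice. -/
noncomputable def tri (U : Fam) (ψ : ImpState K Q) (a b : Fin K) (c : Config K Q)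
    (p : Fin (impChg Q + 1) × Fin (Q + 1) × Fin (Q + 1)) : ℂ :=
  ∑ x, ∑ y, star (U Q x p.2.1) * star (U Q y p.2.2) *
    contr (fun M => U (impChg Q) M p.1) ψ (Function.update (Function.update c a x) b y)

lemma pairChan_rot {ψ : ImpState K Q} {U : Fam} (hU : Good U) (hQ : 1 ≤ Q) {m r c' : ℕ}
    (hr : Valid2 Q m r) (hc : c' = chg Q r + Q - 2 * (m - r)) (a b : Fin K) (c : Config K Q) :
    ∑ Z : Fin (c' + 1), star (U c' Z 0) * (pairChan m r (slice ψ a b c) Z : ℂ)
      = ∑ p, (gv Q m r p : ℂ) * tri U ψ a b c p := by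
  obtain ⟨hm, hW, hrQ, hq, hqQ⟩ := hr
  have e : chg Q r = impChg Q + Q - 2 * r := by simp only [chg, impChg]; omega
  have h3 : ∀ (M : Fin (impChg Q + 1)) (x y : Fin (Q + 1)),
      ∑ Z : Fin (c' + 1), ∑ Y : Fin (chg Q r + 1),
        star (U c' Z 0) *
          ((Jc (m - r) (chg Q r) Q Y y Z : ℂ) * (Jc r (impChg Q) Q M x Y : ℂ))
      = ∑ p : Fin (impChg Q + 1) × Fin (Q + 1) × Fin (Q + 1), (gv Q m r p : ℂ) *
          (star (U (impChg Q) M p.1) * star (U Q x p.2.1) * star (U Q y p.2.2)) := by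
    intro M x y
    have hA : ∀ Y : Fin (chg Q r + 1),
        ∑ Z : Fin (c' + 1), star (U c' Z 0) * (Jc (m - r) (chg Q r) Q Y y Z : ℂ)
        = ∑ Y0 : Fin (chg Q r + 1), ∑ l : Fin (Q + 1),
            star (U (chg Q r) Y Y0) * star (U Q y l) * (Jc (m - r) (chg Q r) Q Y0 l 0 : ℂ) := by
      intro Y
      have h := congrArg star (inter_apply hU hq hqQ hc Y y 0)
      simp only [star_sum, star_mul', Complex.star_def, Complex.conj_ofReal, Fin.val_zero] at h
      simp only [Complex.star_def]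
      rw [Finset.sum_congr rfl fun Z _ => mul_comm _ _, h]
    have hB : ∀ Y0 : Fin (chg Q r + 1),
        ∑ Y : Fin (chg Q r + 1), star (U (chg Q r) Y Y0) * (Jc r (impChg Q) Q M x Y : ℂ)
        = ∑ i : Fin (impChg Q + 1), ∑ j : Fin (Q + 1),
            star (U (impChg Q) M i) * star (U Q x j) * (Jc r (impChg Q) Q i j Y0 : ℂ) := by
      intro Y0
      have h := congrArg star (inter_apply hU hW hrQ e M x Y0)
      simp only [star_sum, star_mul', Complex.star_def, Complex.conj_ofReal] at h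
      simp only [Complex.star_def]
      rw [Finset.sum_congr rfl fun Z _ => mul_comm _ _, h]
    calc ∑ Z : Fin (c' + 1), ∑ Y : Fin (chg Q r + 1), star (U c' Z 0) *
          ((Jc (m - r) (chg Q r) Q Y y Z : ℂ) * (Jc r (impChg Q) Q M x Y : ℂ))
        = ∑ Y : Fin (chg Q r + 1), (Jc r (impChg Q) Q M x Y : ℂ) *
            ∑ Z : Fin (c' + 1), star (U c' Z 0) * (Jc (m - r) (chg Q r) Q Y y Z : ℂ) := by
          rw [Finset.sum_comm]
          refine Finset.sum_congr rfl fun Y _ => ?_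
          rw [Finset.mul_sum]
          exact Finset.sum_congr rfl fun Z _ => by ring
      _ = ∑ Y0 : Fin (chg Q r + 1), ∑ l : Fin (Q + 1),
            star (U Q y l) * (Jc (m - r) (chg Q r) Q Y0 l 0 : ℂ) *
            ∑ Y : Fin (chg Q r + 1), star (U (chg Q r) Y Y0) * (Jc r (impChg Q) Q M x Y : ℂ) := by
          simp only [hA, Finset.mul_sum]
          rw [Finset.sum_comm]
          refine Finset.sum_congr rfl fun Y0 _ => ?_
          rw [Finset.sum_comm]
          exact Finset.sum_congr rfl fun l _ => Finset.sum_congr rfl fun Y _ => by ring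
      _ = _ := by
          simp only [hB, gv, Complex.ofReal_sum, Complex.ofReal_mul, Finset.mul_sum,
            Finset.sum_mul, Fintype.sum_prod_type]
          simp only [← Fintype.sum_prod_type']
          refine Fintype.sum_equiv
            { toFun := fun p => (p.2.2.1, p.2.2.2, p.2.1, p.1),
              invFun := fun p => (p.2.2.2, p.2.2.1, p.1, p.2.1),
              left_inv := fun p => rfl,
              right_inv := fun p => rfl } _ _ ?_
          intro p
          simp only [Equiv.coe_fn_mk]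
          ring
  simp only [pairChan, Finset.sum_range, Complex.ofReal_sum, Complex.ofReal_mul, Finset.mul_sum,
    slice]
  calc ∑ Z : Fin (c' + 1), ∑ M : Fin (impChg Q + 1), ∑ x : Fin (Q + 1), ∑ y : Fin (Q + 1),
        ∑ Y : Fin (chg Q r + 1), star (U c' Z 0) *
          ((Jc (m - r) (chg Q r) Q Y y Z : ℂ) * (Jc r (impChg Q) Q M x Y : ℂ) *
            (ψ M (Function.update (Function.update c a x) b y) : ℂ))
      = ∑ M : Fin (impChg Q + 1), ∑ x : Fin (Q + 1), ∑ y : Fin (Q + 1),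
          (ψ M (Function.update (Function.update c a x) b y) : ℂ) *
          ∑ Z : Fin (c' + 1), ∑ Y : Fin (chg Q r + 1), star (U c' Z 0) *
            ((Jc (m - r) (chg Q r) Q Y y Z : ℂ) * (Jc r (impChg Q) Q M x Y : ℂ)) := by
        rw [Finset.sum_comm]
        refine Finset.sum_congr rfl fun M _ => ?_
        rw [Finset.sum_comm]
        refine Finset.sum_congr rfl fun x _ => ?_
        rw [Finset.sum_comm]
        refine Finset.sum_congr rfl fun y _ => ?_
        simp only [Finset.mul_sum]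
        exact Finset.sum_congr rfl fun Z _ => Finset.sum_congr rfl fun Y _ => by ring
    _ = _ := by
        simp only [h3, tri, contr, Finset.mul_sum]
        simp only [← Fintype.sum_prod_type']
        refine Fintype.sum_equiv
          { toFun := fun p => (p.2.2.2, p.2.1, p.2.2.1, p.1),
            invFun := fun p => (p.2.2.2, p.2.1, p.2.2.1, p.1),
            left_inv := fun p => rfl,
            right_inv := fun p => rfl } _ _ ?_
        intro p
        simp only [Equiv.coe_fn_mk]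
        ring

/-- The degree `m` monomials with ordered fermions. -/
def monoP (Q m : ℕ) : Finset (Fin (impChg Q + 1) × Fin (Q + 1) × Fin (Q + 1)) :=
  univ.filter fun p => (p.1 : ℕ) + p.2.1 + p.2.2 = m ∧ p.2.1 < p.2.2

lemma card_monoP (Q m : ℕ) : 4 * (monoP Q m).card ≤ (m + 1) * (m + 2) := by
  have h := Finset.card_le_card_of_injOn
    (s := (monoP Q m) ×ˢ (univ : Finset (Bool × Bool))) (t := range (m + 1) ×ˢ range (m + 2))
    (fun q => match q.2 with
      | (false, false) => ((q.1.2.1 : ℕ), (q.1.2.2 : ℕ))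
      | (true, false) => ((q.1.2.2 : ℕ), (q.1.2.1 : ℕ))
      | (false, true) => (m - (q.1.2.1 : ℕ), m + 1 - (q.1.2.2 : ℕ))
      | (true, true) => (m - (q.1.2.2 : ℕ), m + 1 - (q.1.2.1 : ℕ))) ?_ ?_
  · simp only [Finset.card_product, Finset.card_univ, Fintype.card_prod, Fintype.card_bool,
      Finset.card_range] at h
    omega
  · rintro ⟨⟨i, j, l⟩, b, b'⟩ hq
    simp only [monoP, coe_product, Set.mem_prod, coe_filter, coe_univ, mem_univ, true_and,
      Set.mem_ofPred_eq, Set.mem_univ, and_true, Fin.lt_def] at hq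
    cases b <;> cases b' <;> simp <;> omega
  · rintro ⟨⟨i, j, l⟩, b, b'⟩ hq ⟨⟨i', j', l'⟩, d, d'⟩ hq' he
    simp only [monoP, coe_product, Set.mem_prod, coe_filter, coe_univ, mem_univ, true_and,
      Set.mem_ofPred_eq, Set.mem_univ, and_true, Fin.lt_def] at hq hq'
    cases b <;> cases b' <;> cases d <;> cases d' <;>
      dsimp only at he <;> simp only [Prod.mk.injEq] at he ⊢ <;>
      first
        | exact ⟨⟨Fin.ext (by omega), Fin.ext (by omega), Fin.ext (by omega)⟩, trivial⟩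
        | (exfalso; omega)

lemma tri_swap (U : Fam) (ψ : ImpState K Q) {a b : Fin K} (hab : a ≠ b) (c : Config K Q)
    (i : Fin (impChg Q + 1)) (j l : Fin (Q + 1)) :
    tri U ψ a b c (i, l, j) = tri U ψ b a c (i, j, l) := by
  simp only [tri]
  rw [Finset.sum_comm]
  refine Finset.sum_congr rfl fun x _ => Finset.sum_congr rfl fun y _ => ?_
  rw [Function.update_comm hab]; ring

lemma tri_diag {ψ : ImpState K Q} (hψ : ∀ M, IsAntisym (ψ M)) (U : Fam) {a b : Fin K}
    (hab : a ≠ b) (c : Config K Q) (i : Fin (impChg Q + 1)) (j : Fin (Q + 1)) :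
    tri U ψ a b c (i, j, j) = 0 := by
  refine Eq.trans ?_ (amp_amp_self (contr_antiOn hψ (fun M => U (impChg Q) M i))
    (fun x => star (U Q x j)) (mem_univ a) (mem_univ b) hab c)
  simp only [tri, amp, Finset.mul_sum, mul_assoc]

lemma sum_mono_split {m : ℕ} (F : Fin (impChg Q + 1) × Fin (Q + 1) × Fin (Q + 1) → ℝ)
    (hF : ∀ i j, F (i, j, j) = 0) :
    ∑ p ∈ univ.filter (fun p : Fin (impChg Q + 1) × Fin (Q + 1) × Fin (Q + 1) =>
        (p.1 : ℕ) + p.2.1 + p.2.2 = m), F p
      = ∑ p ∈ monoP Q m, (F p + F (p.1, p.2.2, p.2.1)) := by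
  rw [Finset.sum_add_distrib, ← Finset.sum_filter_add_sum_filter_not _ (fun p => p.2.1 < p.2.2)]
  congr 1
  · rw [monoP, Finset.filter_filter]
  · rw [Finset.filter_filter]
    symm
    refine (Finset.sum_nbij' (g := F) (fun p => (p.1, p.2.2, p.2.1))
      (fun p => (p.1, p.2.2, p.2.1))
      (t := univ.filter fun p : Fin (impChg Q + 1) × Fin (Q + 1) × Fin (Q + 1) =>
        (p.1 : ℕ) + p.2.1 + p.2.2 = m ∧ p.2.2 < p.2.1) ?_ ?_ ?_ ?_ ?_).trans ?_
    · intro p hp
      have h := (Finset.mem_filter.1 hp).2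
      exact Finset.mem_filter.2 ⟨mem_univ _, by dsimp only; omega, h.2⟩
    · intro p hp
      have h := (Finset.mem_filter.1 hp).2
      exact Finset.mem_filter.2 ⟨mem_univ _, by dsimp only; omega, h.2⟩
    · intro p _; rfl
    · intro p _; rfl
    · intro p _; rfl
    · refine Finset.sum_subset (fun p hp => ?_) (fun p hp hp' => ?_)
      · simp only [mem_filter, mem_univ, true_and] at hp ⊢
        exact ⟨hp.1, fun h => lt_asymm h hp.2⟩
      · simp only [mem_filter, mem_univ, true_and, not_and] at hp hp'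
        have : p.2.1 = p.2.2 := le_antisymm (not_lt.1 (hp' hp.1)) (not_lt.1 hp.2)
        obtain ⟨i, j, l⟩ := p
        simp only at this
        subst this
        exact hF i j

lemma sum_pairs_split (F : Fin K → Fin K → ℝ) :
    ∑ x ∈ (univ : Finset (Fin K × Fin K)).filter (fun x => x.1 < x.2), (F x.1 x.2 + F x.2 x.1)
      = ∑ a, ∑ b ∈ univ.erase a, F a b := by
  rw [Finset.sum_filter, Fintype.sum_prod_type]
  have h : ∀ a : Fin K, ∀ b ∈ univ.erase a, F a b
      = (if a < b then F a b else 0) + (if b < a then F a b else 0) := by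
    intro a b hb
    rcases lt_trichotomy a b with h | h | h
    · simp [h, h.not_gt]
    · exact absurd h.symm (Finset.ne_of_mem_erase hb)
    · simp [h, h.not_gt]
  rw [Finset.sum_congr rfl fun a _ => Finset.sum_congr rfl (h a)]
  simp only [Finset.sum_erase, lt_irrefl, if_false, Finset.sum_add_distrib,
    ite_add_zero]
  congr 1
  exact Finset.sum_comm

lemma projDeg_sum_le' (hgen : GenInter) (horth : JOrth) {ψ : ImpState K Q}
    (hψ : ∀ M, IsAntisym (ψ M)) (hQ : 1 ≤ Q) (m : ℕ) :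
    ∑ x ∈ (univ : Finset (Fin K × Fin K)).filter (fun x => x.1 < x.2),
        ∑ c ∈ restConfigs x.1 x.2, projDeg m (slice ψ x.1 x.2 c)
      ≤ (monoP Q m).card * ((4 * (Q : ℝ) - 1) / ((impChg Q : ℝ) + 1)) * impNormSq ψ := by
  set pairs := (univ : Finset (Fin K × Fin K)).filter (fun x => x.1 < x.2) with hpairs
  set R := (range (m + 1)).filter (Valid2 Q m) with hR
  set κ2 : ℕ → ℝ := fun r => kappa r (impChg Q) Q * kappa (m - r) (chg Q r) Q with hκ2
  set c' := 4 * Q - 2 - 2 * m with hc'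
  have hcr : ∀ r ∈ R, c' = chg Q r + Q - 2 * (m - r) := fun r hr => by
    obtain ⟨_, h1, h2, h3, h4, h5⟩ := Finset.mem_filter.1 hr
    simp only [c', chg, impChg] at *
    omega
  have hκ : ∀ r ∈ R, 0 < κ2 r := fun r hr => by
    obtain ⟨_, h1, h2, h3, h4, h5⟩ := Finset.mem_filter.1 hr
    exact mul_pos (kappa_pos h2 h3) (kappa_pos h4 h5)
  have hproj : ∀ f : ℕ → Fin (Q + 1) → Fin (Q + 1) → ℝ,
      projDeg m f = ∑ r ∈ R, (∑ Z : Fin (c' + 1), pairChan m r f Z ^ 2) / κ2 r := by
    intro f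
    rw [projDeg, hR, Finset.sum_filter]
    refine Finset.sum_congr rfl fun r hr => ?_
    by_cases hv : Valid2 Q m r
    · rw [if_pos hv, hcr r (Finset.mem_filter.2 ⟨hr, hv⟩), Finset.sum_range]
      rfl
    · rw [if_neg hv]
      have : kappa r (impChg Q) Q * kappa (m - r) (chg Q r) Q = 0 := by
        simp only [Valid2, not_and_or, not_le] at hv
        have := Finset.mem_range.1 hr
        rcases hv with h | h | h | h | h
        · omega
        · rw [kappa_eq_zero (.inl h), zero_mul]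
        · rw [kappa_eq_zero (.inr h), zero_mul]
        · rw [kappa_eq_zero (.inl h), mul_zero]
        · rw [kappa_eq_zero (.inr h), mul_zero]
      rw [this, div_zero]
  let ch : Option {p // p ∈ monoP Q m} → ℕ := fun o => o.elim c' (fun _ => impChg Q)
  let k : ∀ o, Fin (ch o + 1) := fun o => match o with
    | none => 0
    | some p => p.1.1
  let T : Matrix (Fin (c' + 1)) (Fin (c' + 1)) ℂ → ℝ := fun X =>
    ∑ x ∈ pairs, ∑ c ∈ restConfigs x.1 x.2, ∑ r ∈ R,
      (κ2 r)⁻¹ * quadV (fun Z : Fin (c' + 1) => pairChan m r (slice ψ x.1 x.2 c) Z) X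
  let L : (∀ o, Matrix (Fin (ch o + 1)) (Fin (ch o + 1)) ℂ) →ₗ[ℝ] ℝ :=
    (∑ p : {p // p ∈ monoP Q m}, (quadNₗ ψ).comp (LinearMap.proj (some p))) -
      ∑ x ∈ pairs, ∑ c ∈ restConfigs x.1 x.2, ∑ r ∈ R, (κ2 r)⁻¹ •
        (quadVₗ (fun Z : Fin (c' + 1) => pairChan m r (slice ψ x.1 x.2 c) Z)).comp
          (LinearMap.proj none)
  have hL : ∀ X, L X = (∑ p, quadN ψ (X (some p))) - T (X none) := fun X => by
    simp only [L, T, LinearMap.sub_apply, LinearMap.smul_apply, LinearMap.sum_apply, smul_eq_mul]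
    rfl
  have key := average_nonneg hgen ch k L ?_
  · rw [hL] at key
    change 0 ≤ (∑ p : {p // p ∈ monoP Q m}, quadN ψ ((((impChg Q : ℕ) : ℂ) + 1)⁻¹ • 1))
      - T ((((c' : ℕ) : ℂ) + 1)⁻¹ • 1) at key
    have e1 : ∀ n : ℕ, (((n : ℕ) : ℂ) + 1)⁻¹ = ((((n : ℝ) + 1)⁻¹ : ℝ) : ℂ) := fun n => by
      push_cast; rfl
    simp only [e1, T, quadN_scalar, quadV_scalar, Finset.sum_const, Finset.card_univ,
      Fintype.card_coe, nsmul_eq_mul] at key
    have e2 : ∑ x ∈ pairs, ∑ c ∈ restConfigs x.1 x.2, ∑ r ∈ R, (κ2 r)⁻¹ *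
          (((c' : ℝ) + 1)⁻¹ * ∑ Z : Fin (c' + 1), pairChan m r (slice ψ x.1 x.2 c) Z ^ 2)
        = ((c' : ℝ) + 1)⁻¹ *
            ∑ x ∈ pairs, ∑ c ∈ restConfigs x.1 x.2, projDeg m (slice ψ x.1 x.2 c) := by
      simp only [hproj, Finset.mul_sum]
      refine Finset.sum_congr rfl fun x _ => Finset.sum_congr rfl fun c _ =>
        Finset.sum_congr rfl fun r _ => ?_
      rw [div_eq_inv_mul, Finset.mul_sum, Finset.mul_sum]
      exact Finset.sum_congr rfl fun Z _ => by ring
    rw [e2] at key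
    have hN : 0 ≤ impNormSq ψ := by unfold impNormSq; positivity
    have hp : (0 : ℝ) < (c' : ℝ) + 1 := by positivity
    have hq : (c' : ℝ) + 1 ≤ 4 * (Q : ℝ) - 1 := by
      have h : c' + 2 ≤ 4 * Q := by omega
      have : (c' : ℝ) + 2 ≤ 4 * Q := by exact_mod_cast h
      linarith
    have h1 := mul_le_mul_of_nonneg_left (sub_nonneg.1 key) hp.le
    rw [← mul_assoc, mul_inv_cancel₀ hp.ne', one_mul] at h1
    refine h1.trans ?_
    rw [div_eq_mul_inv]
    have : 0 ≤ ((monoP Q m).card : ℝ) * (((impChg Q : ℝ) + 1)⁻¹ * impNormSq ψ) := by positivity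
    nlinarith [mul_le_mul_of_nonneg_right hq this]
  · intro U hU
    rw [hL]
    change 0 ≤ (∑ p : {p // p ∈ monoP Q m}, quadN ψ (vecMulVec
        (fun i => U (impChg Q) i p.1.1) (fun i => star (U (impChg Q) i p.1.1))))
      - T (vecMulVec (fun i => U c' i 0) (fun i => star (U c' i 0)))
    simp only [T, quadN_proj, quadV_proj, sub_nonneg]
    set D := univ.filter (fun p : Fin (impChg Q + 1) × Fin (Q + 1) × Fin (Q + 1) =>
        (p.1 : ℕ) + p.2.1 + p.2.2 = m) with hD
    have hb : ∀ (a b : Fin K) (c : Config K Q),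
        ∑ r ∈ R, (κ2 r)⁻¹ *
          ‖∑ Z : Fin (c' + 1), star (U c' Z 0) * (pairChan m r (slice ψ a b c) Z : ℂ)‖ ^ 2
        ≤ ∑ p ∈ D, ‖tri U ψ a b c p‖ ^ 2 := by
      intro a b c
      refine le_trans (le_of_eq (Finset.sum_congr rfl fun r hr => ?_))
        (bessel R D (gv Q m) κ2 hκ (fun r hr r' hr' => ?_) (tri U ψ a b c))
      · rw [pairChan_rot hU hQ (Finset.mem_filter.1 hr).2 (hcr r hr), div_eq_inv_mul]
        congr 3
        symm
        exact Finset.sum_subset (Finset.subset_univ D) fun p _ hp => by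
          rw [gv_supp (Finset.mem_filter.1 hr).2.1 (by simpa [D] using hp), Complex.ofReal_zero,
            zero_mul]
      · rw [Finset.sum_subset (Finset.subset_univ D) fun p _ hp => by
          rw [gv_supp (Finset.mem_filter.1 hr).2.1 (by simpa [D] using hp), zero_mul]]
        convert gv_orth horth hQ (Finset.mem_filter.1 hr).2 (Finset.mem_filter.1 hr').2 using 2
    refine (Finset.sum_le_sum fun x _ => Finset.sum_le_sum fun c _ => hb x.1 x.2 c).trans ?_
    set G : (Fin (impChg Q + 1) × Fin (Q + 1) × Fin (Q + 1)) → Fin K → Fin K → ℝ := fun p a b =>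
      ∑ c ∈ restConfigs a b, ‖tri U ψ a b c p‖ ^ 2 with hG
    have hrest : ∀ a b : Fin K, (restConfigs a b : Finset (Config K Q)) = restConfigs b a :=
      fun a b => by ext c; simp [restConfigs, and_comm]
    calc ∑ x ∈ pairs, ∑ c ∈ restConfigs x.1 x.2, ∑ p ∈ D, ‖tri U ψ x.1 x.2 c p‖ ^ 2
        = ∑ x ∈ pairs, ∑ p ∈ monoP Q m, (G p x.1 x.2 + G p x.2 x.1) := by
          refine Finset.sum_congr rfl fun x hx => ?_
          have hne : x.1 ≠ x.2 := (Finset.mem_filter.1 hx).2.ne
          have : ∀ c : Config K Q, ∑ p ∈ D, ‖tri U ψ x.1 x.2 c p‖ ^ 2 = ∑ p ∈ monoP Q m,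
              (‖tri U ψ x.1 x.2 c p‖ ^ 2 + ‖tri U ψ x.2 x.1 c p‖ ^ 2) := fun c => by
            rw [sum_mono_split _ fun i j => by simp [tri_diag hψ U hne]]
            exact Finset.sum_congr rfl fun p _ => by rw [tri_swap U ψ hne c p.1 p.2.1 p.2.2]
          simp only [this, G, hrest x.2 x.1]
          rw [Finset.sum_comm]
          exact Finset.sum_congr rfl fun p _ => Finset.sum_add_distrib
      _ = ∑ p ∈ monoP Q m, ∑ a, ∑ b ∈ univ.erase a, G p a b := by
          rw [Finset.sum_comm]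
          exact Finset.sum_congr rfl fun p _ => sum_pairs_split (G p)
      _ ≤ ∑ p ∈ monoP Q m, ∑ c, ‖contr (fun M => U (impChg Q) M p.1) ψ c‖ ^ 2 :=
          Finset.sum_le_sum fun p _ => pauli₂ (contr_antiOn hψ _) _ _ (col_norm hU Q p.2.1)
            (col_norm hU Q p.2.2)
      _ = _ := (Finset.sum_coe_sort (monoP Q m)
          (fun p => ∑ c, ‖contr (fun M => U (impChg Q) M p.1) ψ c‖ ^ 2)).symm

end Vale.Agent.P359.Gap.Average
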